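import Vale.Agent.Lib.P133T.Stmt
import Vale.Agent.Lib.P133.Final

/-! # P133, second statement: comparison with the first one -/

open Filter Topology

namespace Vale.Agent.P133T

universe u

section Cuntz

variable {A : Type u} [NonUnitalCStarAlgebra A]

theorem cuntz_iff {p q : Type} [Fintype p] [Fintype q] (U : Matrix p p A) (V : Matrix q q A) :
    CuntzBelow U V ↔ _root_.P133.CuntzLE U V := by
  constructor
  · rintro ⟨X, hX⟩ ε hε
    have h1 : ∀ i j, ∀ᶠ k in atTop, ‖((X k).conjTranspose * V * X k - U) i j‖ < ε := by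
      intro i j
      have h2 : Tendsto (fun k => ((X k).conjTranspose * V * X k) i j) atTop (𝓝 (U i j)) :=
        (tendsto_pi_nhds.1 ((tendsto_pi_nhds.1 hX) i)) j
      have h3 := (Metric.tendsto_nhds.1 h2) ε hε
      filter_upwards [h3] with k hk
      rw [Matrix.sub_apply, ← dist_eq_norm]
      exact hk
    have h2 : ∀ᶠ k in atTop, ∀ i j, ‖((X k).conjTranspose * V * X k - U) i j‖ < ε := by
      rw [eventually_all]
      intro i
      rw [eventually_all]
      exact h1 i
    obtain ⟨k, hk⟩ := h2.exists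
    exact ⟨X k, hk⟩
  · intro h
    choose X hX using fun k : ℕ => h (1 / ((k : ℝ) + 1)) (by positivity)
    refine ⟨X, tendsto_pi_nhds.2 fun i => tendsto_pi_nhds.2 fun j => ?_⟩
    rw [tendsto_iff_norm_sub_tendsto_zero]
    refine squeeze_zero (fun _ => norm_nonneg _) (fun k => (hX k i j).le)
      tendsto_one_div_add_atTop_nhds_zero_nat

end Cuntz

variable {A : Type u} [NonUnitalCStarAlgebra A] [PartialOrder A] [StarOrderedRing A]

theorem pos_iff (x : A) : 0 ≤ x ↔ _root_.P133.IsPos x := CStarAlgebra.nonneg_iff_eq_star_mul_self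

theorem amp_iff (n : ℕ) : AmpInfinite A n ↔
    ∀ h : A, _root_.P133.IsPos h →
      _root_.P133.ProperlyInfinite (Matrix.diagonal fun _ : Fin n => h) := by
  unfold AmpInfinite _root_.P133.ProperlyInfinite
  refine forall_congr' fun h => ?_
  rw [pos_iff, cuntz_iff, Matrix.fromBlocks_diagonal]
  have e : (Sum.elim (fun _ => h) (fun _ => h) : Fin n ⊕ Fin n → A) = fun _ => h := by
    funext i
    cases i <;> rfl
  rw [e]

theorem weakly_iff : WeaklyPurelyInf A ↔ _root_.P133.WeaklyPurelyInfinite A := by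
  unfold WeaklyPurelyInf _root_.P133.WeaklyPurelyInfinite
  refine exists_congr fun n => and_congr Iff.rfl (amp_iff n)

theorem purely_iff : PurelyInf A ↔ _root_.P133.PurelyInfinite A := amp_iff 1

theorem strongly_iff : StronglyPurelyInf A ↔ _root_.P133.StronglyPurelyInfinite A := by
  unfold StronglyPurelyInf _root_.P133.StronglyPurelyInfinite
  refine forall_congr' fun x => forall_congr' fun y => ?_
  rw [pos_iff, pos_iff]
  simp only [mul_assoc]

theorem tfae_of (h : (_root_.P133.WeaklyPurelyInfinite A ↔ _root_.P133.PurelyInfinite A) ∧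
      (_root_.P133.PurelyInfinite A ↔ _root_.P133.StronglyPurelyInfinite A)) :
    [WeaklyPurelyInf A, PurelyInf A, StronglyPurelyInf A].TFAE := by
  rw [weakly_iff, purely_iff, strongly_iff]
  tfae_have 1 ↔ 2 := h.1
  tfae_have 2 ↔ 3 := h.2
  tfae_finish

theorem finiteMaximal_of (hA : ∀ h : A, 0 ≤ h → ∀ ε : ℝ, 0 < ε →
      {I : TwoSidedIdeal A | Maximal (fun J : TwoSidedIdeal A =>
        IsClosed (J : Set A) ∧ ε ≤ Metric.infDist h (J : Set A)) I}.Finite) :
    _root_.P133.FiniteMaximal A := by
  intro h hh ε hε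
  have h1 := hA h ((pos_iff h).2 hh) ε hε
  have e : (fun J : TwoSidedIdeal A => IsClosed (J : Set A) ∧ ε ≤ Metric.infDist h (J : Set A)) =
      fun J : TwoSidedIdeal A => J ∈ _root_.P133.FarIdeals A h ε := by
    funext J
    refine propext (and_congr Iff.rfl ?_)
    rw [Metric.le_infDist ⟨0, zero_mem J⟩]
    simp only [dist_eq_norm]
    rfl
  rw [e] at h1
  exact h1

end Vale.Agent.P133T
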