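import Mathlib

/-! # P133: definitions for the second statement -/

open Filter Topology

namespace Vale.Agent.P133T

universe u

variable {A : Type u} [NonUnitalCStarAlgebra A] [PartialOrder A] [StarOrderedRing A]

omit [PartialOrder A] [StarOrderedRing A] in
/-- Cuntz comparison `U ≾ V` of matrices over `A`: there are rectangular matrices `X 0, X 1, …`
over `A` with `(X k)* V (X k) → U`. -/
def CuntzBelow {p q : Type} [Fintype q] (U : Matrix p p A) (V : Matrix q q A) : Prop :=
  ∃ X : ℕ → Matrix q p A, Tendsto (fun k => (X k).conjTranspose * V * X k) atTop (𝓝 U)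

variable (A)

/-- the `n`-fold amplification `diag(h, …, h)` of every positive `h` is properly infinite:
`diag(h, …, h)` (`2n` times) `≾ diag(h, …, h)` (`n` times). -/
def AmpInfinite (n : ℕ) : Prop :=
  ∀ h : A, 0 ≤ h → CuntzBelow (Matrix.diagonal fun _ : Fin n ⊕ Fin n => h)
    (Matrix.diagonal fun _ : Fin n => h)

/-- every positive element is properly infinite -/
def PurelyInf : Prop := AmpInfinite A 1

/-- for some `n ≥ 1` the `n`-fold amplifications of all positive elements are properly infinite -/
def WeaklyPurelyInf : Prop := ∃ n : ℕ, 1 ≤ n ∧ AmpInfinite A n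

/-- strong pure infiniteness, in the form of Kirchberg and Sierakowski -/
def StronglyPurelyInf : Prop :=
  ∀ x y : A, 0 ≤ x → 0 ≤ y → ∀ ε : ℝ, 0 < ε → ∃ s t : A,
    ‖star s * (x * x) * s - x * x‖ < ε ∧ ‖star t * (y * y) * t - y * y‖ < ε ∧
      ‖star s * x * y * t‖ < ε

end Vale.Agent.P133T
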